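import Mathlib

/-!
# P065, upper bound, [GRID]/[DIM]: core strips (helper822)

Chart of 299/433: `x = u / v`, `y = 1 / v`; the line through `(u, v)` and `(u', v')` with inverse
slope `ζ` is `x = ζ + c * y`.  Two points of one window which are joined in this window and are both
seen by the apex `a` have almost the same value of the class functional `x - ua * y`.

* `core`, `core_abs`: the real inequality;
* `chart_line`: a pair of points in the chart;
* `card_long_intervals`: few pairwise disjoint long intervals meet a bounded interval;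
* `card_short`: most of many disjoint intervals in a bounded range are short;
* `heavy`: many close pairs force a few heavy cells.
-/

set_option autoImplicit false

namespace Vale.Agent.P065.UB.H822

open Finset

/-- the core inequality in product form -/
theorem core {x y x' y' ζ c ua e : ℝ} (h1 : x = ζ + c * y) (h2 : x' = ζ + c * y')
    (h3 : |x - ua * y - ζ| ≤ e) (h4 : |x' - ua * y' - ζ| ≤ e) :
    |(x - ua * y) - (x' - ua * y')| * max |y| |y'| ≤ e * |y - y'| := by
  have e1 : x - ua * y - ζ = (c - ua) * y := by rw [h1]; ring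
  have e2 : x' - ua * y' - ζ = (c - ua) * y' := by rw [h2]; ring
  have e3 : (x - ua * y) - (x' - ua * y') = (c - ua) * (y - y') := by rw [h1, h2]; ring
  rw [e1, abs_mul] at h3
  rw [e2, abs_mul] at h4
  rw [e3, abs_mul]
  have h5 : |c - ua| * max |y| |y'| ≤ e := by
    rcases le_total |y| |y'| with h | h
    · rw [max_eq_right h]; exact h4
    · rw [max_eq_left h]; exact h3
  calc |c - ua| * |y - y'| * max |y| |y'| = (|c - ua| * max |y| |y'|) * |y - y'| := by ring
    _ ≤ e * |y - y'| := mul_le_mul_of_nonneg_right h5 (abs_nonneg _)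

/-- the core inequality, quotient form -/
theorem core_abs {x y x' y' ζ c ua e : ℝ} (h1 : x = ζ + c * y) (h2 : x' = ζ + c * y')
    (h3 : |x - ua * y - ζ| ≤ e) (h4 : |x' - ua * y' - ζ| ≤ e) (hy : y ≠ 0) :
    |(x - ua * y) - (x' - ua * y')| ≤ e * |y - y'| / max |y| |y'| := by
  have hm : 0 < max |y| |y'| := lt_of_lt_of_le (abs_pos.2 hy) (le_max_left _ _)
  rw [le_div_iff₀ hm]
  exact core h1 h2 h3 h4

/-- the core inequality in a box `|y - h| ≤ r`, `|y' - h| ≤ r`: the width is at most
`4 e r / (|h| + r)` (and at most `2 e` always) -/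
theorem core_box {x y x' y' ζ c ua e h r : ℝ} (h1 : x = ζ + c * y) (h2 : x' = ζ + c * y')
    (h3 : |x - ua * y - ζ| ≤ e) (h4 : |x' - ua * y' - ζ| ≤ e) (hr : 0 < r)
    (hy : |y - h| ≤ r) (hy' : |y' - h| ≤ r) :
    |(x - ua * y) - (x' - ua * y')| * (|h| + r) ≤ 6 * e * r := by
  have he : 0 ≤ e := (abs_nonneg _).trans h3
  have htr : |(x - ua * y) - (x' - ua * y')| ≤ 2 * e := by
    have : (x - ua * y) - (x' - ua * y') = (x - ua * y - ζ) - (x' - ua * y' - ζ) := by ring
    rw [this]
    calc |(x - ua * y - ζ) - (x' - ua * y' - ζ)| ≤ |x - ua * y - ζ| + |x' - ua * y' - ζ| :=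
          abs_sub _ _
      _ ≤ 2 * e := by linarith
  have hyy : |y - y'| ≤ 2 * r := by
    have : y - y' = (y - h) - (y' - h) := by ring
    rw [this]
    calc |(y - h) - (y' - h)| ≤ |y - h| + |y' - h| := abs_sub _ _
      _ ≤ 2 * r := by linarith
  have h0 := abs_nonneg ((x - ua * y) - (x' - ua * y'))
  rcases le_total |h| (2 * r) with hh | hh
  · calc |(x - ua * y) - (x' - ua * y')| * (|h| + r)
        ≤ (2 * e) * (3 * r) := by
          apply mul_le_mul htr (by linarith) (by positivity) (by positivity)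
      _ = 6 * e * r := by ring
  · have hc := core h1 h2 h3 h4
    have hm : |h| - r ≤ max |y| |y'| := by
      have : |h| ≤ |y| + |y - h| := by
        have h5 : h = y - (y - h) := by ring
        calc |h| = |y - (y - h)| := by rw [← h5]
          _ ≤ |y| + |y - h| := abs_sub _ _
      have h6 := le_max_left |y| |y'|
      linarith
    have hm2 : (|h| + r) ≤ 3 * (|h| - r) := by linarith
    have h7 : |(x - ua * y) - (x' - ua * y')| * (|h| - r) ≤ e * (2 * r) := by
      calc |(x - ua * y) - (x' - ua * y')| * (|h| - r)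
          ≤ |(x - ua * y) - (x' - ua * y')| * max |y| |y'| := mul_le_mul_of_nonneg_left hm h0
        _ ≤ e * |y - y'| := hc
        _ ≤ e * (2 * r) := mul_le_mul_of_nonneg_left hyy he
    calc |(x - ua * y) - (x' - ua * y')| * (|h| + r)
        ≤ |(x - ua * y) - (x' - ua * y')| * (3 * (|h| - r)) := mul_le_mul_of_nonneg_left hm2 h0
      _ = 3 * (|(x - ua * y) - (x' - ua * y')| * (|h| - r)) := by ring
      _ ≤ 3 * (e * (2 * r)) := by linarith
      _ = 6 * e * r := by ring

/-- the chart of a pair of points: `ζ` the inverse slope -/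
theorem chart_line {u v u' v' : ℝ} (hv : v ≠ 0) (hv' : v' ≠ 0) (hvv : v ≠ v') :
    u / v = (u - u') / (v - v') + (u - (u - u') / (v - v') * v) * (1 / v) ∧
    u' / v' = (u - u') / (v - v') + (u - (u - u') / (v - v') * v) * (1 / v') := by
  have h : v - v' ≠ 0 := sub_ne_zero.2 hvv
  constructor
  · field_simp
    ring
  · field_simp
    ring

/-- pairwise disjoint intervals (order connected sets) of length `≥ l` which meet an interval of
length `L`: at most `L / l + 2` -/
theorem card_long_intervals {ι : Type*} [DecidableEq ι] (S : Finset ι) (Z : ι → Set ℝ)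
    (hconn : ∀ i ∈ S, (Z i).OrdConnected)
    (hdisj : ∀ i ∈ S, ∀ j ∈ S, i ≠ j → Disjoint (Z i) (Z j)) {l a L : ℝ} (hl : 0 < l)
    (hlong : ∀ i ∈ S, ∃ s ∈ Z i, ∃ t ∈ Z i, s + l ≤ t)
    (hmeet : ∀ i ∈ S, ∃ z ∈ Z i, a ≤ z ∧ z ≤ a + L) (hL : 0 ≤ L) :
    (#S : ℝ) ≤ L / l + 2 := by
  classical
  -- order the intervals by a point in the window
  choose! z hz hza hzL using hmeet
  by_contra hcon
  push Not at hcon
  have hinj : Set.InjOn z S := by
    intro i hi j hj hij
    by_contra hne
    exact Set.disjoint_left.1 (hdisj i hi j hj hne) (hz i hi) (hij ▸ hz j hj)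
  -- intermediate intervals are contained in `[a, a + L]`
  have hS0 : S.Nonempty := by
    rw [Finset.nonempty_iff_ne_empty]
    rintro rfl
    have h1 : 0 ≤ L / l := div_nonneg hL hl.le
    simp at hcon
    linarith
  obtain ⟨i0, hi0, hmin⟩ := Finset.exists_min_image S z hS0
  obtain ⟨i1, hi1, hmax⟩ := Finset.exists_max_image S z hS0
  set S' := (S.erase i0).erase i1 with hS'
  have hcard : (#S : ℝ) ≤ #S' + 2 := by
    have h1 : #S ≤ #(S.erase i0) + 1 := by
      have h := Finset.pred_card_le_card_erase (s := S) (a := i0)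
      omega
    have h2 : #(S.erase i0) ≤ #S' + 1 := by
      have h : #(S.erase i0) - 1 ≤ #S' := Finset.pred_card_le_card_erase
      omega
    have : #S ≤ #S' + 2 := by omega
    exact_mod_cast this
  -- every interval of `S'` is inside `(z i0, z i1)`
  have hin : ∀ i ∈ S', Z i ⊆ Set.Icc (z i0) (z i1) := by
    intro i hi w hw
    have hi1' : i ≠ i1 := (Finset.mem_erase.1 hi).1
    have hi2 := (Finset.mem_erase.1 hi).2
    have hi0' : i ≠ i0 := (Finset.mem_erase.1 hi2).1
    have hiS : i ∈ S := (Finset.mem_erase.1 hi2).2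
    constructor
    · by_contra hlt
      push Not at hlt
      have : z i0 ∈ Z i := (hconn i hiS).out hw (hz i hiS) ⟨hlt.le, hmin i hiS⟩
      exact Set.disjoint_left.1 (hdisj i hiS i0 hi0 hi0') this (hz i0 hi0)
    · by_contra hlt
      push Not at hlt
      have : z i1 ∈ Z i := (hconn i hiS).out (hz i hiS) hw ⟨hmax i hiS, hlt.le⟩
      exact Set.disjoint_left.1 (hdisj i hiS i1 hi1 hi1') this (hz i1 hi1)
  choose! s hs t ht hst using hlong
  -- the intervals `Ico (s i) (t i)` are disjoint in `[z i0, z i1]`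
  have hmeas : ∑ i ∈ S', (t i - s i) ≤ z i1 - z i0 := by
    have hsubset : (⋃ i ∈ S', Set.Ioo (s i) (t i)) ⊆ Set.Icc (z i0) (z i1) := by
      intro w hw
      simp only [Set.mem_iUnion] at hw
      obtain ⟨i, hi, hw⟩ := hw
      have hiS : i ∈ S := (Finset.mem_erase.1 (Finset.mem_erase.1 hi).2).2
      have h1 := hin i hi (hs i hiS)
      have h2 := hin i hi (ht i hiS)
      exact ⟨h1.1.trans hw.1.le, hw.2.le.trans h2.2⟩
    have h1 : MeasureTheory.volume (⋃ i ∈ S', Set.Ioo (s i) (t i)) =
        ∑ i ∈ S', MeasureTheory.volume (Set.Ioo (s i) (t i)) := by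
      apply MeasureTheory.measure_biUnion_finset
      · intro i hi j hj hij
        have hiS : i ∈ S := (Finset.mem_erase.1 (Finset.mem_erase.1 hi).2).2
        have hjS : j ∈ S := (Finset.mem_erase.1 (Finset.mem_erase.1 hj).2).2
        apply Set.disjoint_of_subset _ _ (hdisj i hiS j hjS hij)
        · intro w hw
          exact (hconn i hiS).out (hs i hiS) (ht i hiS) ⟨hw.1.le, hw.2.le⟩
        · intro w hw
          exact (hconn j hjS).out (hs j hjS) (ht j hjS) ⟨hw.1.le, hw.2.le⟩
      · intro i _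
        exact measurableSet_Ioo
    have h2 : ∑ i ∈ S', MeasureTheory.volume (Set.Ioo (s i) (t i)) ≤
        MeasureTheory.volume (Set.Icc (z i0) (z i1)) := by
      rw [← h1]; exact MeasureTheory.measure_mono hsubset
    simp only [Real.volume_Ioo, Real.volume_Icc] at h2
    rw [← ENNReal.ofReal_sum_of_nonneg] at h2
    · rwa [ENNReal.ofReal_le_ofReal_iff] at h2
      have := hmin i1 hi1
      linarith
    · intro i hi
      have hiS : i ∈ S := (Finset.mem_erase.1 (Finset.mem_erase.1 hi).2).2
      have := hst i hiS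
      linarith
  have h3 : (#S' : ℝ) * l ≤ ∑ i ∈ S', (t i - s i) := by
    rw [← nsmul_eq_mul]
    apply Finset.card_nsmul_le_sum
    intro i hi
    have hiS : i ∈ S := (Finset.mem_erase.1 (Finset.mem_erase.1 hi).2).2
    have := hst i hiS
    linarith
  have h4 : z i1 - z i0 ≤ L := by
    have h5 := hza i0 hi0
    have h6 := hzL i1 hi1
    linarith
  have h5 : (#S' : ℝ) ≤ L / l := by
    rw [le_div_iff₀ hl]
    linarith
  linarith

open Classical in
/-- **HEAVY CELLS** (abstract): `T` a finite set, `cl : α → ℤ` the index of the cell, `J` a set of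
ordered pairs of points of `T` in equal or adjacent cells.  If `3 * #T * m ≤ #J / 2`, the points in
cells with at least `m` points carry at least half of the pairs, in particular there are at least
`#J / (2 * #T)` such points; and the number of heavy cells is at most `#T / m`. -/
theorem heavy {α : Type*} (T : Finset α) (cl : α → ℤ) (J : Finset (α × α)) (m : ℝ) (hm0 : 0 ≤ m)
    (hJ : ∀ e ∈ J, e.1 ∈ T ∧ e.2 ∈ T ∧ |cl e.1 - cl e.2| ≤ 1)
    (hm : 6 * (#T : ℝ) * m ≤ #J) :
    (#J : ℝ) ≤ 2 * #T * #{x ∈ T | m ≤ (#{z ∈ T | cl z = cl x} : ℝ)} := by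
  set H := {x ∈ T | m ≤ (#{z ∈ T | cl z = cl x} : ℝ)} with hH
  have hsplit : J ⊆ (T ×ˢ H) ∪ {e ∈ J | e.2 ∉ H} := by
    intro e he
    by_cases h : e.2 ∈ H
    · exact Finset.mem_union_left _ (Finset.mem_product.2 ⟨(hJ e he).1, h⟩)
    · exact Finset.mem_union_right _ (Finset.mem_filter.2 ⟨he, h⟩)
  have hlight : (#{e ∈ J | e.2 ∉ H} : ℝ) ≤ 3 * #T * m := by
    -- count by first coordinate: the second lies in one of three light cells
    have hsub : {e ∈ J | e.2 ∉ H} ⊆
        T.biUnion fun x => ({-1, 0, 1} : Finset ℤ).biUnion fun d =>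
          ({z ∈ T | cl z = cl x + d ∧ z ∉ H}).image fun z => (x, z) := by
      intro e he
      obtain ⟨heJ, heH⟩ := Finset.mem_filter.1 he
      obtain ⟨h1, h2, h3⟩ := hJ e heJ
      refine Finset.mem_biUnion.2 ⟨e.1, h1, Finset.mem_biUnion.2 ⟨cl e.2 - cl e.1, ?_,
        Finset.mem_image.2 ⟨e.2, Finset.mem_filter.2 ⟨h2, by ring, heH⟩, rfl⟩⟩⟩
      rw [abs_le] at h3
      have h4 : -1 ≤ cl e.2 - cl e.1 := by linarith [h3.2]
      have h5 : cl e.2 - cl e.1 ≤ 1 := by linarith [h3.1]
      simp only [Finset.mem_insert, Finset.mem_singleton]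
      omega
    have hc : ∀ x ∈ T, ∀ d ∈ ({-1, 0, 1} : Finset ℤ),
        (#(({z ∈ T | cl z = cl x + d ∧ z ∉ H}).image fun z => (x, z)) : ℝ) ≤ max m 0 := by
      intro x _ d _
      have h1 : (#(({z ∈ T | cl z = cl x + d ∧ z ∉ H}).image fun z => (x, z)) : ℝ)
          ≤ #({z ∈ T | cl z = cl x + d ∧ z ∉ H}) := by
        exact_mod_cast Finset.card_image_le
      refine h1.trans ?_
      rcases Finset.eq_empty_or_nonempty ({z ∈ T | cl z = cl x + d ∧ z ∉ H}) with h0 | ⟨z0, hz0⟩
      · rw [h0]; simp
      · obtain ⟨hz1, hz2, hz3⟩ := Finset.mem_filter.1 hz0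
        have hlt : (#{z ∈ T | cl z = cl z0} : ℝ) < m := by
          by_contra hge
          push Not at hge
          exact hz3 (Finset.mem_filter.2 ⟨hz1, hge⟩)
        have hle : (#({z ∈ T | cl z = cl x + d ∧ z ∉ H}) : ℝ) ≤ #{z ∈ T | cl z = cl z0} := by
          have : ({z ∈ T | cl z = cl x + d ∧ z ∉ H}) ⊆ {z ∈ T | cl z = cl z0} := by
            intro z hz
            obtain ⟨ha, hb, _⟩ := Finset.mem_filter.1 hz
            exact Finset.mem_filter.2 ⟨ha, by rw [hb, hz2]⟩
          exact_mod_cast Finset.card_le_card this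
        exact (hle.trans hlt.le).trans (le_max_left _ _)
    have h1 : (#{e ∈ J | e.2 ∉ H} : ℝ) ≤ #T * (3 * max m 0) := by
      calc (#{e ∈ J | e.2 ∉ H} : ℝ) ≤ #(T.biUnion fun x => ({-1, 0, 1} : Finset ℤ).biUnion fun d =>
          ({z ∈ T | cl z = cl x + d ∧ z ∉ H}).image fun z => (x, z)) := by
            exact_mod_cast Finset.card_le_card hsub
        _ ≤ ∑ x ∈ T, (#(({-1, 0, 1} : Finset ℤ).biUnion fun d =>
          ({z ∈ T | cl z = cl x + d ∧ z ∉ H}).image fun z => (x, z)) : ℝ) := by
            exact_mod_cast Finset.card_biUnion_le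
        _ ≤ ∑ x ∈ T, ∑ d ∈ ({-1, 0, 1} : Finset ℤ),
          (#(({z ∈ T | cl z = cl x + d ∧ z ∉ H}).image fun z => (x, z)) : ℝ) := by
            apply Finset.sum_le_sum
            intro x _
            exact_mod_cast Finset.card_biUnion_le
        _ ≤ ∑ x ∈ T, ∑ d ∈ ({-1, 0, 1} : Finset ℤ), max m 0 := by
            apply Finset.sum_le_sum
            intro x hx
            apply Finset.sum_le_sum
            intro d hd
            exact hc x hx d hd
        _ = #T * (3 * max m 0) := by
            have h3 : #({-1, 0, 1} : Finset ℤ) = 3 := by decide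
            simp only [Finset.sum_const, nsmul_eq_mul, h3]
            norm_num
    rw [max_eq_left hm0] at h1
    linarith
  have htot : (#J : ℝ) ≤ #T * #H + #{e ∈ J | e.2 ∉ H} := by
    have h1 : #J ≤ #(T ×ˢ H) + #{e ∈ J | e.2 ∉ H} :=
      (Finset.card_le_card hsplit).trans (Finset.card_union_le _ _)
    rw [Finset.card_product] at h1
    exact_mod_cast h1
  linarith

end Vale.Agent.P065.UB.H822
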