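import Mathlib

/-!
# P065, upper bound, [DIM]: areas and few squares (helper822)

* `det3`: twice the signed area of a triangle;
* `few_squares` (LEMMA S of the note of 21:50): a finite set in a box of side `r` all of whose
  triangles have area at most `al` meets few squares of side `d`;
* `det_chart`: area of a triangle in the chart `x = u / v`, `y = 1 / v`;
* `det_box`: in a chart box of side `r` around height one the areas are `O(r ^ 2)`.
-/

set_option autoImplicit false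

namespace Vale.Agent.P065.UB.H822

open Finset

/-- twice the signed area of the triangle -/
def det3 (x1 y1 x2 y2 x3 y3 : ℝ) : ℝ := (x2 - x1) * (y3 - y1) - (x3 - x1) * (y2 - y1)

theorem det3_swap (x1 y1 x2 y2 x3 y3 : ℝ) :
    det3 y1 x1 y2 x2 y3 x3 = - det3 x1 y1 x2 y2 x3 y3 := by
  unfold det3; ring

theorem card_Icc_floor {a b : ℝ} (h : a ≤ b) :
    (#(Finset.Icc ⌊a⌋ ⌊b⌋) : ℝ) ≤ b - a + 2 := by
  rw [Int.card_Icc]
  have h1 : ⌊a⌋ ≤ ⌊b⌋ := Int.floor_le_floor h
  have h2 : (0 : ℤ) ≤ ⌊b⌋ + 1 - ⌊a⌋ := by omega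
  have h3 : (((⌊b⌋ + 1 - ⌊a⌋).toNat : ℤ) : ℝ) = ((⌊b⌋ + 1 - ⌊a⌋ : ℤ) : ℝ) := by
    rw [Int.toNat_of_nonneg h2]
  have h4 : ((⌊b⌋ + 1 - ⌊a⌋).toNat : ℝ) = (((⌊b⌋ + 1 - ⌊a⌋).toNat : ℤ) : ℝ) := by norm_cast
  rw [h4, h3]
  push_cast
  have h5 := Int.floor_le b
  have h6 := Int.lt_floor_add_one a
  linarith

/-- covering by squares when all points are close to the line of a long pair -/
theorem squares_aux {α : Type*} (P : Finset α) (f g : α → ℝ) {d L al : ℝ} (m : ℕ) (hd : 0 < d)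
    (hL : 0 < L) (hal : 0 ≤ al) (p q : α) (hpq : |f q - f p| = L) (hg : |g q - g p| ≤ L)
    (hf : ∀ z ∈ P, |f z - f p| ≤ L)
    (hsq : ∀ s t : ℝ, #{z ∈ P | s ≤ f z ∧ f z ≤ s + d ∧ t ≤ g z ∧ g z ≤ t + d} ≤ m)
    (har : ∀ z ∈ P, |(f q - f p) * (g z - g p) - (f z - f p) * (g q - g p)| ≤ al) :
    (#P : ℝ) ≤ m * ((2 * (L / d) + 2) * (2 * (al / (L * d)) + 4)) := by
  classical
  have hne : f q - f p ≠ 0 := by
    intro h; rw [h, abs_zero] at hpq; linarith
  set σ := (g q - g p) / (f q - f p) with hσ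
  have hσ1 : |σ| ≤ 1 := by
    rw [hσ, abs_div, hpq]
    exact (div_le_one hL).2 hg
  set A := al / (L * d) with hA
  have hA0 : 0 ≤ A := by positivity
  have key : ∀ z ∈ P, |(g z - g p) / d - σ * ((f z - f p) / d)| ≤ A := by
    intro z hz
    have e1 : (g z - g p) / d - σ * ((f z - f p) / d) =
        ((f q - f p) * (g z - g p) - (f z - f p) * (g q - g p)) / ((f q - f p) * d) := by
      rw [hσ]; field_simp
    rw [e1, abs_div, abs_mul, hpq, abs_of_pos hd, hA]
    exact div_le_div_of_nonneg_right (har z hz) (by positivity)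
  set idx : α → ℤ × ℤ := fun z => (⌊(f z - f p) / d⌋, ⌊(g z - g p) / d⌋) with hidx
  have hfib : ∀ c ∈ P.image idx, #{z ∈ P | idx z = c} ≤ m := by
    intro c _
    refine le_trans (Finset.card_le_card ?_) (hsq (f p + c.1 * d) (g p + c.2 * d))
    intro z hz
    obtain ⟨hzP, hzc⟩ := Finset.mem_filter.1 hz
    have h1 : ⌊(f z - f p) / d⌋ = c.1 := by rw [← hzc]
    have h2 : ⌊(g z - g p) / d⌋ = c.2 := by rw [← hzc]
    have h3 := Int.floor_le ((f z - f p) / d)
    have h4 := (Int.lt_floor_add_one ((f z - f p) / d)).le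
    have h5 := Int.floor_le ((g z - g p) / d)
    have h6 := (Int.lt_floor_add_one ((g z - g p) / d)).le
    rw [h1] at h3 h4
    rw [h2] at h5 h6
    rw [le_div_iff₀ hd] at h3 h5
    rw [div_le_iff₀ hd] at h4 h6
    exact Finset.mem_filter.2 ⟨hzP, by linarith, by linarith, by linarith, by linarith⟩
  have hcard : #P ≤ m * #(P.image idx) :=
    Finset.card_le_mul_card_image P m hfib
  have himg : P.image idx ⊆ (Finset.Icc ⌊-(L / d)⌋ ⌊L / d⌋).biUnion fun i : ℤ =>
      (Finset.Icc ⌊σ * i - 1 - A⌋ ⌊σ * i + 1 + A⌋).image fun j : ℤ => (i, j) := by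
    intro c hc
    obtain ⟨z, hz, rfl⟩ := Finset.mem_image.1 hc
    have h1 := abs_le.1 (hf z hz)
    have h2 : -(L / d) ≤ (f z - f p) / d := by
      rw [← neg_div]; exact div_le_div_of_nonneg_right h1.1 hd.le
    have h3 : (f z - f p) / d ≤ L / d := div_le_div_of_nonneg_right h1.2 hd.le
    refine Finset.mem_biUnion.2 ⟨⌊(f z - f p) / d⌋, Finset.mem_Icc.2
      ⟨Int.floor_le_floor h2, Int.floor_le_floor h3⟩, Finset.mem_image.2
      ⟨⌊(g z - g p) / d⌋, Finset.mem_Icc.2 ?_, rfl⟩⟩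
    have h4 := Int.floor_le ((f z - f p) / d)
    have h5 := (Int.lt_floor_add_one ((f z - f p) / d)).le
    have h6 := abs_le.1 (key z hz)
    have h7 : |σ * ((f z - f p) / d) - σ * ⌊(f z - f p) / d⌋| ≤ 1 := by
      rw [← mul_sub, abs_mul]
      have h8 : |(f z - f p) / d - ⌊(f z - f p) / d⌋| ≤ 1 := by
        rw [abs_le]; constructor <;> linarith
      calc |σ| * |(f z - f p) / d - ⌊(f z - f p) / d⌋| ≤ 1 * 1 :=
            mul_le_mul hσ1 h8 (abs_nonneg _) zero_le_one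
        _ = 1 := one_mul 1
    have h9 := abs_le.1 h7
    constructor
    · apply Int.floor_le_floor; linarith [h6.1, h9.1]
    · apply Int.floor_le_floor; linarith [h6.2, h9.2]
  have himgc : (#(P.image idx) : ℝ) ≤ (2 * (L / d) + 2) * (2 * A + 4) := by
    have h1 : (#(P.image idx) : ℝ) ≤ ∑ i ∈ Finset.Icc ⌊-(L / d)⌋ ⌊L / d⌋,
        (#((Finset.Icc ⌊σ * i - 1 - A⌋ ⌊σ * i + 1 + A⌋).image fun j : ℤ => (i, j)) : ℝ) := by
      have := (Finset.card_le_card himg).trans Finset.card_biUnion_le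
      exact_mod_cast this
    have h2 : ∀ i ∈ Finset.Icc ⌊-(L / d)⌋ ⌊L / d⌋,
        (#((Finset.Icc ⌊σ * i - 1 - A⌋ ⌊σ * i + 1 + A⌋).image fun j : ℤ => (i, j)) : ℝ)
          ≤ 2 * A + 4 := by
      intro i _
      have h3 : (#((Finset.Icc ⌊σ * i - 1 - A⌋ ⌊σ * i + 1 + A⌋).image fun j : ℤ => (i, j)) : ℝ)
          ≤ #(Finset.Icc ⌊σ * i - 1 - A⌋ ⌊σ * i + 1 + A⌋) := by
        exact_mod_cast Finset.card_image_le
      have h4 := card_Icc_floor (a := σ * i - 1 - A) (b := σ * i + 1 + A) (by linarith)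
      linarith
    have h5 := card_Icc_floor (a := -(L / d)) (b := L / d) (by
      have : 0 ≤ L / d := by positivity
      linarith)
    have h6 : (∑ i ∈ Finset.Icc ⌊-(L / d)⌋ ⌊L / d⌋,
        (#((Finset.Icc ⌊σ * i - 1 - A⌋ ⌊σ * i + 1 + A⌋).image fun j : ℤ => (i, j)) : ℝ))
        ≤ #(Finset.Icc ⌊-(L / d)⌋ ⌊L / d⌋) * (2 * A + 4) := by
      rw [← nsmul_eq_mul]
      exact Finset.sum_le_card_nsmul _ _ _ h2
    have h7 : (#(Finset.Icc ⌊-(L / d)⌋ ⌊L / d⌋) : ℝ) * (2 * A + 4)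
        ≤ (2 * (L / d) + 2) * (2 * A + 4) := by
      apply mul_le_mul_of_nonneg_right _ (by linarith)
      linarith
    linarith
  have hm : (#P : ℝ) ≤ m * #(P.image idx) := by exact_mod_cast hcard
  exact hm.trans (mul_le_mul_of_nonneg_left himgc (Nat.cast_nonneg _))

/-- **LEMMA S**: a set of points in a box of side `r` with small triangles meets few squares of
side `d`; if each square of side `d` contains at most `m` points, the set is small. -/
theorem few_squares {α : Type*} (P : Finset α) (f g : α → ℝ) {d r al : ℝ} (m : ℕ) (hd : 0 < d)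
    (hal : 0 ≤ al) (hr : 0 ≤ r)
    (hbf : ∀ p ∈ P, ∀ q ∈ P, |f q - f p| ≤ r) (hbg : ∀ p ∈ P, ∀ q ∈ P, |g q - g p| ≤ r)
    (hsq : ∀ s t : ℝ, #{z ∈ P | s ≤ f z ∧ f z ≤ s + d ∧ t ≤ g z ∧ g z ≤ t + d} ≤ m)
    (har : ∀ p ∈ P, ∀ q ∈ P, ∀ z ∈ P, |det3 (f p) (g p) (f q) (g q) (f z) (g z)| ≤ al) :
    (#P : ℝ) ≤ 24 * m * (al / d ^ 2 + r / d + 1) := by
  classical
  rcases P.eq_empty_or_nonempty with rfl | hP
  · simp; positivity
  have hPP : (P ×ˢ P).Nonempty := hP.product hP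
  obtain ⟨⟨p, q⟩, hpq, hmax⟩ := Finset.exists_max_image (P ×ˢ P)
    (fun e => max |f e.2 - f e.1| |g e.2 - g e.1|) hPP
  obtain ⟨hp, hq⟩ := Finset.mem_product.1 hpq
  simp only at hp hq
  have hmax' : ∀ z ∈ P, max |f z - f p| |g z - g p| ≤ max |f q - f p| |g q - g p| :=
    fun z hz => hmax (p, z) (Finset.mem_product.2 ⟨hp, hz⟩)
  set L := max |f q - f p| |g q - g p| with hL
  have hL0 : 0 ≤ L := (abs_nonneg _).trans (le_max_left _ _)
  have hLr : L ≤ r := max_le (hbf p hp q hq) (hbg p hp q hq)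
  have hfin : ∀ X : ℝ, (#P : ℝ) ≤ m * X → X ≤ 24 * (al / d ^ 2 + r / d + 1) →
      (#P : ℝ) ≤ 24 * m * (al / d ^ 2 + r / d + 1) := by
    intro X h1 h2
    have := mul_le_mul_of_nonneg_left h2 (Nat.cast_nonneg (α := ℝ) m)
    linarith
  have hrd : 0 ≤ r / d := by positivity
  have hald : 0 ≤ al / d ^ 2 := by positivity
  rcases le_total L d with hLd | hLd
  · -- everything in nine... four squares
    have h1 : P ⊆ ({z ∈ P | f p - d ≤ f z ∧ f z ≤ f p - d + d ∧ g p - d ≤ g z ∧ g z ≤ g p - d + d} ∪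
        {z ∈ P | f p - d ≤ f z ∧ f z ≤ f p - d + d ∧ g p ≤ g z ∧ g z ≤ g p + d}) ∪
        ({z ∈ P | f p ≤ f z ∧ f z ≤ f p + d ∧ g p - d ≤ g z ∧ g z ≤ g p - d + d} ∪
        {z ∈ P | f p ≤ f z ∧ f z ≤ f p + d ∧ g p ≤ g z ∧ g z ≤ g p + d}) := by
      intro z hz
      have h2 := hmax' z hz
      have h3 := abs_le.1 ((le_max_left _ _).trans (h2.trans hLd))
      have h4 := abs_le.1 ((le_max_right _ _).trans (h2.trans hLd))
      simp only [Finset.mem_union, Finset.mem_filter]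
      rcases le_total (f z) (f p) with h5 | h5 <;> rcases le_total (g z) (g p) with h6 | h6
      · exact Or.inl (Or.inl ⟨hz, by linarith [h3.1], by linarith, by linarith [h4.1], by linarith⟩)
      · exact Or.inl (Or.inr ⟨hz, by linarith [h3.1], by linarith, h6, by linarith [h4.2]⟩)
      · exact Or.inr (Or.inl ⟨hz, h5, by linarith [h3.2], by linarith [h4.1], by linarith⟩)
      · exact Or.inr (Or.inr ⟨hz, h5, by linarith [h3.2], h6, by linarith [h4.2]⟩)
    have h2 : #P ≤ (m + m) + (m + m) :=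
      (Finset.card_le_card h1).trans ((Finset.card_union_le _ _).trans
        (add_le_add ((Finset.card_union_le _ _).trans (add_le_add (hsq _ _) (hsq _ _)))
          ((Finset.card_union_le _ _).trans (add_le_add (hsq _ _) (hsq _ _)))))
    have h3 : (#P : ℝ) ≤ m * 4 := by
      have : (#P : ℝ) ≤ (((m + m) + (m + m) : ℕ) : ℝ) := by exact_mod_cast h2
      push_cast at this
      linarith
    exact hfin 4 h3 (by linarith)
  · have hLpos : 0 < L := lt_of_lt_of_le hd hLd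
    have hfinal : (2 * (L / d) + 2) * (2 * (al / (L * d)) + 4) ≤
        24 * (al / d ^ 2 + r / d + 1) := by
      have e1 : L / d * (al / (L * d)) = al / d ^ 2 := by field_simp
      have e2 : al / (L * d) ≤ al / d ^ 2 := by
        apply div_le_div_of_nonneg_left hal (by positivity)
        rw [sq]; exact mul_le_mul_of_nonneg_right hLd hd.le
      have e3 : L / d ≤ r / d := div_le_div_of_nonneg_right hLr hd.le
      have e4 : (2 * (L / d) + 2) * (2 * (al / (L * d)) + 4)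
          = 4 * (L / d * (al / (L * d))) + 8 * (L / d) + 4 * (al / (L * d)) + 8 := by ring
      rw [e4, e1]
      linarith
    rcases le_total |g q - g p| |f q - f p| with hc | hc
    · have hLf : |f q - f p| = L := by rw [hL, max_eq_left hc]
      refine hfin _ (squares_aux P f g m hd hLpos hal p q hLf (by rw [← hLf]; exact hc)
        (fun z hz => (le_max_left _ _).trans (hmax' z hz)) hsq ?_) hfinal
      intro z hz
      have := har p hp q hq z hz
      unfold det3 at this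
      exact this
    · have hLg : |g q - g p| = L := by rw [hL, max_eq_right hc]
      refine hfin _ (squares_aux P g f m hd hLpos hal p q hLg (by rw [← hLg]; exact hc)
        (fun z hz => (le_max_right _ _).trans (hmax' z hz)) ?_ ?_) hfinal
      · intro s t
        refine le_trans (le_of_eq ?_) (hsq t s)
        congr 1
        ext z
        simp only [Finset.mem_filter]
        tauto
      · intro z hz
        have := har p hp q hq z hz
        unfold det3 at this
        rw [← abs_neg]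
        have e : -((g q - g p) * (f z - f p) - (g z - g p) * (f q - f p)) =
          (f q - f p) * (g z - g p) - (f z - f p) * (g q - g p) := by ring
        rw [e]
        exact this

/-- area of a triangle in the chart `x = u / v`, `y = 1 / v` -/
theorem det_chart {u1 v1 u2 v2 u3 v3 : ℝ} (h1 : v1 ≠ 0) (h2 : v2 ≠ 0) (h3 : v3 ≠ 0) :
    det3 u1 v1 u2 v2 u3 v3 =
      -(v1 * v2 * v3 * det3 (u1 / v1) (1 / v1) (u2 / v2) (1 / v2) (u3 / v3) (1 / v3)) := by
  unfold det3
  field_simp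
  ring

/-- points of a box of the chart at height about one span small triangles -/
theorem det_box {u1 v1 u2 v2 u3 v3 x0 r : ℝ} (hr : r ≤ 1 / 2) (h1 : v1 ≠ 0) (h2 : v2 ≠ 0)
    (h3 : v3 ≠ 0) (hx1 : |u1 / v1 - x0| ≤ r) (hx2 : |u2 / v2 - x0| ≤ r)
    (hx3 : |u3 / v3 - x0| ≤ r) (hy1 : |1 / v1 - 1| ≤ r) (hy2 : |1 / v2 - 1| ≤ r)
    (hy3 : |1 / v3 - 1| ≤ r) : |det3 u1 v1 u2 v2 u3 v3| ≤ 64 * r ^ 2 := by
  have hr0 : 0 ≤ r := (abs_nonneg _).trans hx1
  have hv : ∀ v : ℝ, v ≠ 0 → |1 / v - 1| ≤ r → |v| ≤ 2 := by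
    intro v hv hy
    have h5 := (abs_le.1 hy).1
    have h6 : 1 / 2 ≤ 1 / v := by linarith
    have h7 : 0 < v := by
      by_contra h
      have : 1 / v ≤ 0 := div_nonpos_of_nonneg_of_nonpos zero_le_one (not_lt.1 h)
      linarith
    rw [abs_of_pos h7]
    exact (one_div_le_one_div (by norm_num) h7).1 h6
  have hd : |det3 (u1 / v1) (1 / v1) (u2 / v2) (1 / v2) (u3 / v3) (1 / v3)| ≤ 8 * r ^ 2 := by
    unfold det3
    have a1 : |u2 / v2 - u1 / v1| ≤ 2 * r := by
      have : u2 / v2 - u1 / v1 = (u2 / v2 - x0) - (u1 / v1 - x0) := by ring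
      rw [this]; exact (abs_sub _ _).trans (by linarith)
    have a2 : |u3 / v3 - u1 / v1| ≤ 2 * r := by
      have : u3 / v3 - u1 / v1 = (u3 / v3 - x0) - (u1 / v1 - x0) := by ring
      rw [this]; exact (abs_sub _ _).trans (by linarith)
    have b1 : |1 / v2 - 1 / v1| ≤ 2 * r := by
      have : 1 / v2 - 1 / v1 = (1 / v2 - 1) - (1 / v1 - 1) := by ring
      rw [this]; exact (abs_sub _ _).trans (by linarith)
    have b2 : |1 / v3 - 1 / v1| ≤ 2 * r := by
      have : 1 / v3 - 1 / v1 = (1 / v3 - 1) - (1 / v1 - 1) := by ring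
      rw [this]; exact (abs_sub _ _).trans (by linarith)
    calc _ ≤ |(u2 / v2 - u1 / v1) * (1 / v3 - 1 / v1)| + |(u3 / v3 - u1 / v1) *
          (1 / v2 - 1 / v1)| := abs_sub _ _
      _ ≤ (2 * r) * (2 * r) + (2 * r) * (2 * r) := by
          rw [abs_mul, abs_mul]
          exact add_le_add (mul_le_mul a1 b2 (abs_nonneg _) (by positivity))
            (mul_le_mul a2 b1 (abs_nonneg _) (by positivity))
      _ = 8 * r ^ 2 := by ring
  rw [det_chart h1 h2 h3, abs_neg, abs_mul, abs_mul, abs_mul]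
  have e1 : |v1| * |v2| * |v3| ≤ 2 * 2 * 2 :=
    mul_le_mul (mul_le_mul (hv v1 h1 hy1) (hv v2 h2 hy2) (abs_nonneg _) (by norm_num))
      (hv v3 h3 hy3) (abs_nonneg _) (by norm_num)
  calc _ ≤ (2 * 2 * 2) * (8 * r ^ 2) := mul_le_mul e1 hd (abs_nonneg _) (by norm_num)
    _ = 64 * r ^ 2 := by ring

end Vale.Agent.P065.UB.H822
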