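import Vale.Agent.P065.H17.AC1
import Vale.Agent.P065.UB.H822.Area

/-!
# P065, upper bound, [DIM]: SQUARE (helper822)

From a dense set of cells over an interval of rows of length `r` to one square `r × r` with many
cells (point (3) of the note of 21:50).
-/

set_option autoImplicit false

namespace Vale.Agent.P065.UB.H822

open Finset
open Vale.Agent.P118.OF (Cov Sep)

open Classical in
/-- abstract form: the cells of every strip have at most `M1` colours, at most `M2` cells of one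
strip lie over one column -/
theorem square_abs {σ β γ κ : Type*} (S : Finset σ) (C : σ → Finset (β × γ)) (B : Finset β)
    (col : β → κ) {M1 M2 T : ℝ} (hM2 : 0 ≤ M2) (hT : 0 < T)
    (h1 : ∀ s ∈ S, ∀ p ∈ C s, p.1 ∈ B)
    (h2 : ∀ s ∈ S, (#((C s).image fun p => col p.1) : ℝ) ≤ M1)
    (h3 : ∀ s ∈ S, ∀ b : β, (#{p ∈ C s | p.1 = b} : ℝ) ≤ M2)
    (h4 : T ≤ ∑ s ∈ S, (#(C s) : ℝ)) :
    ∃ k : κ, T ^ 2 ≤ 4 * M1 * M2 * #S * #B * ∑ s ∈ S, (#{p ∈ C s | col p.1 = k} : ℝ) := by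
  have hpos : 0 < M1 * M2 * #S := by
    rcases S.eq_empty_or_nonempty with h | hS
    · rw [h] at h4; simp at h4; linarith
    have hS' : (0 : ℝ) < #S := by exact_mod_cast hS.card_pos
    obtain ⟨s, hs, hs0⟩ : ∃ s ∈ S, 0 < (#(C s) : ℝ) := by
      by_contra hcon
      push Not at hcon
      have := Finset.sum_nonpos hcon
      linarith
    have hne : (C s).Nonempty := Finset.card_pos.1 (by exact_mod_cast hs0)
    obtain ⟨p, hp⟩ := hne
    have a1 : (1 : ℝ) ≤ M1 := by
      refine le_trans ?_ (h2 s hs)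
      exact_mod_cast Finset.card_pos.2 ⟨_, Finset.mem_image_of_mem _ hp⟩
    have a2 : (1 : ℝ) ≤ M2 := by
      refine le_trans ?_ (h3 s hs p.1)
      have h5 : 0 < #{p' ∈ C s | p'.1 = p.1} :=
        Finset.card_pos.2 ⟨p, Finset.mem_filter.2 ⟨hp, rfl⟩⟩
      exact_mod_cast h5
    positivity
  set θ : ℝ := T / (2 * (M1 * M2 * #S)) with hθ
  have hθ0 : 0 < θ := by positivity
  -- light part
  set lt : κ → Prop := fun k => (#{b ∈ B | col b = k} : ℝ) < θ with hlt
  have hlight : ∀ s ∈ S, (#{p ∈ C s | lt (col p.1)} : ℝ) ≤ M1 * (M2 * θ) := by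
    intro s hs
    have hsub : {p ∈ C s | lt (col p.1)} ⊆
        (((C s).image fun p => col p.1).filter lt).biUnion fun k =>
          {b ∈ B | col b = k}.biUnion fun b => {p ∈ C s | p.1 = b} := by
      intro p hp
      obtain ⟨hp1, hp2⟩ := Finset.mem_filter.1 hp
      refine Finset.mem_biUnion.2 ⟨col p.1, Finset.mem_filter.2
        ⟨Finset.mem_image_of_mem _ hp1, hp2⟩, Finset.mem_biUnion.2 ⟨p.1,
        Finset.mem_filter.2 ⟨h1 s hs p hp1, rfl⟩, Finset.mem_filter.2 ⟨hp1, rfl⟩⟩⟩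
    have hle : #{p ∈ C s | lt (col p.1)} ≤ ∑ k ∈ ((C s).image fun p => col p.1).filter lt,
          #({b ∈ B | col b = k}.biUnion fun b => {p ∈ C s | p.1 = b}) :=
      (Finset.card_le_card hsub).trans Finset.card_biUnion_le
    calc (#{p ∈ C s | lt (col p.1)} : ℝ) ≤ ∑ k ∈ ((C s).image fun p => col p.1).filter lt,
          (#({b ∈ B | col b = k}.biUnion fun b => {p ∈ C s | p.1 = b}) : ℝ) := by
          exact_mod_cast hle
      _ ≤ ∑ k ∈ ((C s).image fun p => col p.1).filter lt, M2 * θ := by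
          apply Finset.sum_le_sum
          intro k hk
          have hk2 := (Finset.mem_filter.1 hk).2
          calc (#({b ∈ B | col b = k}.biUnion fun b => {p ∈ C s | p.1 = b}) : ℝ)
              ≤ ∑ b ∈ {b ∈ B | col b = k}, (#{p ∈ C s | p.1 = b} : ℝ) := by
                exact_mod_cast Finset.card_biUnion_le
            _ ≤ ∑ b ∈ {b ∈ B | col b = k}, M2 :=
                Finset.sum_le_sum fun b _ => h3 s hs b
            _ = #{b ∈ B | col b = k} * M2 := by rw [Finset.sum_const, nsmul_eq_mul]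
            _ ≤ θ * M2 := mul_le_mul_of_nonneg_right hk2.le hM2
            _ = M2 * θ := mul_comm _ _
      _ = #(((C s).image fun p => col p.1).filter lt) * (M2 * θ) := by
          rw [Finset.sum_const, nsmul_eq_mul]
      _ ≤ M1 * (M2 * θ) := by
          apply mul_le_mul_of_nonneg_right _ (by positivity)
          refine le_trans ?_ (h2 s hs)
          exact_mod_cast Finset.card_filter_le _ _
  have hlightS : ∑ s ∈ S, (#{p ∈ C s | lt (col p.1)} : ℝ) ≤ T / 2 := by
    calc _ ≤ ∑ s ∈ S, M1 * (M2 * θ) := Finset.sum_le_sum hlight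
      _ = (M1 * M2 * #S) * θ := by rw [Finset.sum_const, nsmul_eq_mul]; ring
      _ = T / 2 := by
        rw [hθ]
        have h5 : M1 * M2 * (#S : ℝ) ≠ 0 := hpos.ne'
        generalize M1 * M2 * (#S : ℝ) = z at h5 ⊢
        field_simp
  -- heavy colours
  set Kh : Finset κ := (B.image col).filter fun k => ¬ lt k with hKh
  have hKhc : (#Kh : ℝ) * θ ≤ #B := by
    have e1 : (#Kh : ℝ) * θ ≤ ∑ k ∈ Kh, (#{b ∈ B | col b = k} : ℝ) := by
      rw [← nsmul_eq_mul]
      apply Finset.card_nsmul_le_sum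
      intro k hk
      exact not_lt.1 (Finset.mem_filter.1 hk).2
    have e2 : ∑ k ∈ Kh, #{b ∈ B | col b = k} ≤ #B := by
      rw [← Finset.card_biUnion]
      · apply Finset.card_le_card
        intro b hb
        obtain ⟨k, _, hb2⟩ := Finset.mem_biUnion.1 hb
        exact (Finset.mem_filter.1 hb2).1
      · intro k _ k' _ hkk
        show Disjoint _ _
        rw [Finset.disjoint_left]
        intro b hb hb'
        exact hkk ((Finset.mem_filter.1 hb).2.symm.trans (Finset.mem_filter.1 hb').2)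
    have e3 : ∑ k ∈ Kh, (#{b ∈ B | col b = k} : ℝ) ≤ #B := by exact_mod_cast e2
    linarith
  have hheavy : T / 2 ≤ ∑ k ∈ Kh, ∑ s ∈ S, (#{p ∈ C s | col p.1 = k} : ℝ) := by
    rw [Finset.sum_comm]
    have e1 : ∀ s ∈ S, (#(C s) : ℝ) ≤ #{p ∈ C s | lt (col p.1)} +
        ∑ k ∈ Kh, (#{p ∈ C s | col p.1 = k} : ℝ) := by
      intro s hs
      have e2 : C s ⊆ {p ∈ C s | lt (col p.1)} ∪ Kh.biUnion fun k => {p ∈ C s | col p.1 = k} := by
        intro p hp
        by_cases hl : lt (col p.1)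
        · exact Finset.mem_union_left _ (Finset.mem_filter.2 ⟨hp, hl⟩)
        · exact Finset.mem_union_right _ (Finset.mem_biUnion.2 ⟨col p.1,
            Finset.mem_filter.2 ⟨Finset.mem_image_of_mem _ (h1 s hs p hp), hl⟩,
            Finset.mem_filter.2 ⟨hp, rfl⟩⟩)
      have e3 : #(C s) ≤ #{p ∈ C s | lt (col p.1)} + ∑ k ∈ Kh, #{p ∈ C s | col p.1 = k} :=
        (Finset.card_le_card e2).trans ((Finset.card_union_le _ _).trans
          (Nat.add_le_add_left Finset.card_biUnion_le _))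
      exact_mod_cast e3
    have e2 := Finset.sum_le_sum e1
    rw [Finset.sum_add_distrib] at e2
    linarith
  have hKhne : Kh.Nonempty := by
    by_contra h
    rw [Finset.not_nonempty_iff_eq_empty] at h
    rw [h, Finset.sum_empty] at hheavy
    linarith
  obtain ⟨k, hk, hkmax⟩ := Finset.exists_max_image Kh
    (fun k => ∑ s ∈ S, (#{p ∈ C s | col p.1 = k} : ℝ)) hKhne
  refine ⟨k, ?_⟩
  set g := ∑ s ∈ S, (#{p ∈ C s | col p.1 = k} : ℝ) with hg
  have e1 : T / 2 ≤ #Kh * g := by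
    refine hheavy.trans ?_
    rw [← nsmul_eq_mul]
    exact Finset.sum_le_card_nsmul _ _ _ hkmax
  have hg0 : 0 ≤ g := Finset.sum_nonneg fun _ _ => Nat.cast_nonneg _
  have e2 : T / 2 * θ ≤ #B * g := by
    calc T / 2 * θ ≤ #Kh * g * θ := mul_le_mul_of_nonneg_right e1 hθ0.le
      _ = #Kh * θ * g := by ring
      _ ≤ #B * g := mul_le_mul_of_nonneg_right hKhc hg0
  have e3 : T / 2 * θ = T ^ 2 / (4 * (M1 * M2 * #S)) := by rw [hθ]; field_simp; ring
  rw [e3, div_le_iff₀ (by positivity)] at e2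
  calc T ^ 2 ≤ #B * g * (4 * (M1 * M2 * #S)) := e2
    _ = 4 * M1 * M2 * #S * #B * g := by ring

/-- **SQUARE**: `C s` cells of the strip `s` of the class `a` over rows in an interval of length
`r`; there is one interval of columns of length `r` over which a dense part of the cells lies. -/
theorem square {K δ r a h0 T : ℝ} {B H : Finset ℝ} (S : Finset ℝ) (C : ℝ → Finset (ℝ × ℝ))
    (hK : 1 ≤ K) (hδ : 0 < δ) (hδr : δ ≤ r) (ha1 : 1 ≤ K * |a|) (ha2 : |a| ≤ K) (hH : Sep δ H)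
    (hT : 0 < T)
    (hsub : ∀ s ∈ S, ∀ p ∈ C s, p.1 ∈ B ∧ p.2 ∈ H)
    (hrow : ∀ s ∈ S, ∀ p ∈ C s, h0 ≤ p.2 ∧ p.2 ≤ h0 + r)
    (hnear : ∀ s ∈ S, ∀ p ∈ C s, |p.1 + a * p.2 - s| ≤ δ)
    (hsum : T ≤ ∑ s ∈ S, (#(C s) : ℝ)) :
    ∃ x0 : ℝ, T ^ 2 ≤ 96 * K ^ 2 * #S * #B *
      ∑ s ∈ S, (#((C s).filter fun p => x0 ≤ p.1 ∧ p.1 ≤ x0 + r) : ℝ) := by
  classical
  have hr : 0 < r := lt_of_lt_of_le hδ hδr
  have hK0 : 0 < K := by linarith
  have ha0 : 0 < |a| := by
    by_contra hcon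
    have h : |a| = 0 := le_antisymm (not_lt.1 hcon) (abs_nonneg _)
    rw [h, mul_zero] at ha1
    linarith
  have h2 : ∀ s ∈ S, (#((C s).image fun p => ⌊p.1 / r⌋) : ℝ) ≤ 6 * K := by
    intro s hs
    have hsubI : (C s).image (fun p => ⌊p.1 / r⌋) ⊆
        Finset.Icc ⌊(s - a * h0 - |a| * r - δ) / r⌋ ⌊(s - a * h0 + |a| * r + δ) / r⌋ := by
      intro k hk
      obtain ⟨p, hp, rfl⟩ := Finset.mem_image.1 hk
      have e1 := abs_le.1 (hnear s hs p hp)
      have e2 := hrow s hs p hp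
      have e3 : |a * (p.2 - h0)| ≤ |a| * r := by
        rw [abs_mul]
        apply mul_le_mul_of_nonneg_left _ (abs_nonneg a)
        rw [abs_le]; constructor <;> linarith [e2.1, e2.2]
      have e4 := abs_le.1 e3
      refine Finset.mem_Icc.2 ⟨Int.floor_le_floor ?_, Int.floor_le_floor ?_⟩
      · apply div_le_div_of_nonneg_right _ hr.le
        linarith [e1.1, e4.2]
      · apply div_le_div_of_nonneg_right _ hr.le
        linarith [e1.2, e4.1]
    have hfl := card_Icc_floor (a := (s - a * h0 - |a| * r - δ) / r)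
      (b := (s - a * h0 + |a| * r + δ) / r) (by
        apply div_le_div_of_nonneg_right _ hr.le
        have : 0 ≤ |a| * r := by positivity
        linarith)
    have e5 : (s - a * h0 + |a| * r + δ) / r - (s - a * h0 - |a| * r - δ) / r + 2 ≤ 6 * K := by
      have e6 : (s - a * h0 + |a| * r + δ) / r - (s - a * h0 - |a| * r - δ) / r
          = 2 * |a| + 2 * (δ / r) := by field_simp; ring
      have e7 : δ / r ≤ 1 := (div_le_one hr).2 hδr
      rw [e6]
      linarith
    have e8 : (#((C s).image fun p => ⌊p.1 / r⌋) : ℝ) ≤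
        #(Finset.Icc ⌊(s - a * h0 - |a| * r - δ) / r⌋ ⌊(s - a * h0 + |a| * r + δ) / r⌋) := by
      exact_mod_cast Finset.card_le_card hsubI
    linarith
  have h3 : ∀ s ∈ S, ∀ b : ℝ, (#{p ∈ C s | p.1 = b} : ℝ) ≤ 4 * K := by
    intro s hs b
    have hinj : Set.InjOn (fun p : ℝ × ℝ => p.2) ({p ∈ C s | p.1 = b} : Finset (ℝ × ℝ)) := by
      intro p hp q hq hpq
      have h1 := (Finset.mem_filter.1 hp).2
      have h2 := (Finset.mem_filter.1 hq).2
      exact Prod.ext (h1.trans h2.symm) hpq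
    rw [← Finset.card_image_of_injOn hinj]
    have h4 := H17.card_sep (P := ({p ∈ C s | p.1 = b} : Finset (ℝ × ℝ)).image fun p => p.2)
      (l := 2 * K * δ) hδ (by positivity) (by
        intro x hx y hy hxy
        obtain ⟨p, hp, rfl⟩ := Finset.mem_image.1 hx
        obtain ⟨q, hq, rfl⟩ := Finset.mem_image.1 hy
        exact hH _ (hsub s hs p (Finset.mem_filter.1 hp).1).2 _
          (hsub s hs q (Finset.mem_filter.1 hq).1).2 hxy) (by
        intro x hx y hy
        obtain ⟨p, hp, rfl⟩ := Finset.mem_image.1 hx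
        obtain ⟨q, hq, rfl⟩ := Finset.mem_image.1 hy
        have e1 := abs_le.1 (hnear s hs p (Finset.mem_filter.1 hp).1)
        have e2 := abs_le.1 (hnear s hs q (Finset.mem_filter.1 hq).1)
        have e3 := (Finset.mem_filter.1 hp).2
        have e4 := (Finset.mem_filter.1 hq).2
        have e5 : |a * (p.2 - q.2)| ≤ 2 * δ := by
          rw [abs_le]; constructor <;> nlinarith
        rw [abs_mul] at e5
        calc |p.2 - q.2| ≤ K * |a| * |p.2 - q.2| := le_mul_of_one_le_left (abs_nonneg _) ha1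
          _ = K * (|a| * |p.2 - q.2|) := by ring
          _ ≤ K * (2 * δ) := mul_le_mul_of_nonneg_left e5 hK0.le
          _ = 2 * K * δ := by ring)
    have h5 : 2 * K * δ / δ = 2 * K := by field_simp
    rw [h5] at h4
    linarith
  obtain ⟨k, hk⟩ := square_abs S C B (fun b => ⌊b / r⌋) (M1 := 6 * K) (M2 := 4 * K)
    (by positivity) hT (fun s hs p hp => (hsub s hs p hp).1)
    (fun s hs => by convert h2 s hs) (fun s hs b => by convert h3 s hs b) hsum
  have hk' : T ^ 2 ≤ 4 * (6 * K) * (4 * K) * #S * #B *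
      ∑ s ∈ S, (#{p ∈ C s | ⌊p.1 / r⌋ = k} : ℝ) := by
    refine hk.trans (le_of_eq ?_)
    congr 1
    apply Finset.sum_congr rfl
    intro s _
    congr 2
    ext p
    simp only [Finset.mem_filter]
  refine ⟨k * r, hk'.trans ?_⟩
  have e1 : ∑ s ∈ S, (#{p ∈ C s | ⌊p.1 / r⌋ = k} : ℝ) ≤
      ∑ s ∈ S, (#((C s).filter fun p => (k : ℝ) * r ≤ p.1 ∧ p.1 ≤ k * r + r) : ℝ) := by
    apply Finset.sum_le_sum
    intro s _
    have : {p ∈ C s | ⌊p.1 / r⌋ = k} ⊆
        (C s).filter fun p => (k : ℝ) * r ≤ p.1 ∧ p.1 ≤ k * r + r := by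
      intro p hp
      obtain ⟨hp1, hp2⟩ := Finset.mem_filter.1 hp
      have f1 := Int.floor_le (p.1 / r)
      have f2 := (Int.lt_floor_add_one (p.1 / r)).le
      rw [hp2] at f1 f2
      rw [le_div_iff₀ hr] at f1
      rw [div_le_iff₀ hr] at f2
      exact Finset.mem_filter.2 ⟨hp1, f1, by linarith⟩
    exact_mod_cast Finset.card_le_card this
  calc 4 * (6 * K) * (4 * K) * #S * #B * ∑ s ∈ S, (#{p ∈ C s | ⌊p.1 / r⌋ = k} : ℝ)
      = (96 * K ^ 2 * #S * #B) * ∑ s ∈ S, (#{p ∈ C s | ⌊p.1 / r⌋ = k} : ℝ) := by ring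
    _ ≤ (96 * K ^ 2 * #S * #B) *
      ∑ s ∈ S, (#((C s).filter fun p => (k : ℝ) * r ≤ p.1 ∧ p.1 ≤ k * r + r) : ℝ) :=
        mul_le_mul_of_nonneg_left e1 (by positivity)

/-- **SQUARE**, with `K * δ` in `near`: `C s` cells of the strip `s` of the class `a` over rows in an interval of length
`r`; there is one interval of columns of length `r` over which a dense part of the cells lies. -/
theorem squareK {K δ r a h0 T : ℝ} {B H : Finset ℝ} (S : Finset ℝ) (C : ℝ → Finset (ℝ × ℝ))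
    (hK : 1 ≤ K) (hδ : 0 < δ) (hδr : δ ≤ r) (ha1 : 1 ≤ K * |a|) (ha2 : |a| ≤ K) (hH : Sep δ H)
    (hT : 0 < T)
    (hsub : ∀ s ∈ S, ∀ p ∈ C s, p.1 ∈ B ∧ p.2 ∈ H)
    (hrow : ∀ s ∈ S, ∀ p ∈ C s, h0 ≤ p.2 ∧ p.2 ≤ h0 + r)
    (hnear : ∀ s ∈ S, ∀ p ∈ C s, |p.1 + a * p.2 - s| ≤ K * δ)
    (hsum : T ≤ ∑ s ∈ S, (#(C s) : ℝ)) :
    ∃ x0 : ℝ, T ^ 2 ≤ 96 * K ^ 3 * #S * #B *
      ∑ s ∈ S, (#((C s).filter fun p => x0 ≤ p.1 ∧ p.1 ≤ x0 + r) : ℝ) := by
  classical
  have hr : 0 < r := lt_of_lt_of_le hδ hδr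
  have hK0 : 0 < K := by linarith
  have ha0 : 0 < |a| := by
    by_contra hcon
    have h : |a| = 0 := le_antisymm (not_lt.1 hcon) (abs_nonneg _)
    rw [h, mul_zero] at ha1
    linarith
  have h2 : ∀ s ∈ S, (#((C s).image fun p => ⌊p.1 / r⌋) : ℝ) ≤ 6 * K := by
    intro s hs
    have hsubI : (C s).image (fun p => ⌊p.1 / r⌋) ⊆
        Finset.Icc ⌊(s - a * h0 - |a| * r - K * δ) / r⌋ ⌊(s - a * h0 + |a| * r + K * δ) / r⌋ := by
      intro k hk
      obtain ⟨p, hp, rfl⟩ := Finset.mem_image.1 hk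
      have e1 := abs_le.1 (hnear s hs p hp)
      have e2 := hrow s hs p hp
      have e3 : |a * (p.2 - h0)| ≤ |a| * r := by
        rw [abs_mul]
        apply mul_le_mul_of_nonneg_left _ (abs_nonneg a)
        rw [abs_le]; constructor <;> linarith [e2.1, e2.2]
      have e4 := abs_le.1 e3
      refine Finset.mem_Icc.2 ⟨Int.floor_le_floor ?_, Int.floor_le_floor ?_⟩
      · apply div_le_div_of_nonneg_right _ hr.le
        linarith [e1.1, e4.2]
      · apply div_le_div_of_nonneg_right _ hr.le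
        linarith [e1.2, e4.1]
    have hfl := card_Icc_floor (a := (s - a * h0 - |a| * r - K * δ) / r)
      (b := (s - a * h0 + |a| * r + K * δ) / r) (by
        apply div_le_div_of_nonneg_right _ hr.le
        have : 0 ≤ |a| * r := by positivity
        have h' : 0 ≤ K * δ := by positivity
        linarith)
    have e5 : (s - a * h0 + |a| * r + K * δ) / r - (s - a * h0 - |a| * r - K * δ) / r + 2 ≤ 6 * K := by
      have e6 : (s - a * h0 + |a| * r + K * δ) / r - (s - a * h0 - |a| * r - K * δ) / r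
          = 2 * |a| + 2 * (K * (δ / r)) := by field_simp; ring
      have e7 : δ / r ≤ 1 := (div_le_one hr).2 hδr
      have e9 : K * (δ / r) ≤ K * 1 := mul_le_mul_of_nonneg_left e7 hK0.le
      rw [e6]
      linarith
    have e8 : (#((C s).image fun p => ⌊p.1 / r⌋) : ℝ) ≤
        #(Finset.Icc ⌊(s - a * h0 - |a| * r - K * δ) / r⌋ ⌊(s - a * h0 + |a| * r + K * δ) / r⌋) := by
      exact_mod_cast Finset.card_le_card hsubI
    linarith
  have h3 : ∀ s ∈ S, ∀ b : ℝ, (#{p ∈ C s | p.1 = b} : ℝ) ≤ 4 * K ^ 2 := by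
    intro s hs b
    have hinj : Set.InjOn (fun p : ℝ × ℝ => p.2) ({p ∈ C s | p.1 = b} : Finset (ℝ × ℝ)) := by
      intro p hp q hq hpq
      have h1 := (Finset.mem_filter.1 hp).2
      have h2 := (Finset.mem_filter.1 hq).2
      exact Prod.ext (h1.trans h2.symm) hpq
    rw [← Finset.card_image_of_injOn hinj]
    have h4 := H17.card_sep (P := ({p ∈ C s | p.1 = b} : Finset (ℝ × ℝ)).image fun p => p.2)
      (l := 2 * K ^ 2 * δ) hδ (by positivity) (by
        intro x hx y hy hxy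
        obtain ⟨p, hp, rfl⟩ := Finset.mem_image.1 hx
        obtain ⟨q, hq, rfl⟩ := Finset.mem_image.1 hy
        exact hH _ (hsub s hs p (Finset.mem_filter.1 hp).1).2 _
          (hsub s hs q (Finset.mem_filter.1 hq).1).2 hxy) (by
        intro x hx y hy
        obtain ⟨p, hp, rfl⟩ := Finset.mem_image.1 hx
        obtain ⟨q, hq, rfl⟩ := Finset.mem_image.1 hy
        have e1 := abs_le.1 (hnear s hs p (Finset.mem_filter.1 hp).1)
        have e2 := abs_le.1 (hnear s hs q (Finset.mem_filter.1 hq).1)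
        have e3 := (Finset.mem_filter.1 hp).2
        have e4 := (Finset.mem_filter.1 hq).2
        have e5 : |a * (p.2 - q.2)| ≤ 2 * (K * δ) := by
          have e6 : a * (p.2 - q.2) = (p.1 + a * p.2 - s) - (q.1 + a * q.2 - s) := by
            rw [e3, e4]; ring
          rw [e6, abs_le]; constructor <;> linarith [e1.1, e1.2, e2.1, e2.2]
        rw [abs_mul] at e5
        calc |p.2 - q.2| ≤ K * |a| * |p.2 - q.2| := le_mul_of_one_le_left (abs_nonneg _) ha1
          _ = K * (|a| * |p.2 - q.2|) := by ring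
          _ ≤ K * (2 * (K * δ)) := mul_le_mul_of_nonneg_left e5 hK0.le
          _ = 2 * K ^ 2 * δ := by ring)
    have h5 : 2 * K ^ 2 * δ / δ = 2 * K ^ 2 := by field_simp
    have h6 : 1 ≤ K ^ 2 := one_le_pow₀ hK
    rw [h5] at h4
    linarith
  obtain ⟨k, hk⟩ := square_abs S C B (fun b => ⌊b / r⌋) (M1 := 6 * K) (M2 := 4 * K ^ 2)
    (by positivity) hT (fun s hs p hp => (hsub s hs p hp).1)
    (fun s hs => by convert h2 s hs) (fun s hs b => by convert h3 s hs b) hsum
  have hk' : T ^ 2 ≤ 4 * (6 * K) * (4 * K ^ 2) * #S * #B *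
      ∑ s ∈ S, (#{p ∈ C s | ⌊p.1 / r⌋ = k} : ℝ) := by
    refine hk.trans (le_of_eq ?_)
    congr 1
    apply Finset.sum_congr rfl
    intro s _
    congr 2
    ext p
    simp only [Finset.mem_filter]
  refine ⟨k * r, hk'.trans ?_⟩
  have e1 : ∑ s ∈ S, (#{p ∈ C s | ⌊p.1 / r⌋ = k} : ℝ) ≤
      ∑ s ∈ S, (#((C s).filter fun p => (k : ℝ) * r ≤ p.1 ∧ p.1 ≤ k * r + r) : ℝ) := by
    apply Finset.sum_le_sum
    intro s _
    have : {p ∈ C s | ⌊p.1 / r⌋ = k} ⊆
        (C s).filter fun p => (k : ℝ) * r ≤ p.1 ∧ p.1 ≤ k * r + r := by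
      intro p hp
      obtain ⟨hp1, hp2⟩ := Finset.mem_filter.1 hp
      have f1 := Int.floor_le (p.1 / r)
      have f2 := (Int.lt_floor_add_one (p.1 / r)).le
      rw [hp2] at f1 f2
      rw [le_div_iff₀ hr] at f1
      rw [div_le_iff₀ hr] at f2
      exact Finset.mem_filter.2 ⟨hp1, f1, by linarith⟩
    exact_mod_cast Finset.card_le_card this
  calc 4 * (6 * K) * (4 * K ^ 2) * #S * #B * ∑ s ∈ S, (#{p ∈ C s | ⌊p.1 / r⌋ = k} : ℝ)
      = (96 * K ^ 3 * #S * #B) * ∑ s ∈ S, (#{p ∈ C s | ⌊p.1 / r⌋ = k} : ℝ) := by ring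
    _ ≤ (96 * K ^ 3 * #S * #B) *
      ∑ s ∈ S, (#((C s).filter fun p => (k : ℝ) * r ≤ p.1 ∧ p.1 ≤ k * r + r) : ℝ) :=
        mul_le_mul_of_nonneg_left e1 (by positivity)

end Vale.Agent.P065.UB.H822
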